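import Vale.Agent.P359.Main
import Vale.Agent.P359.FastCert.Main

/-!
P359: a gap of the spherical `V₁` Hamiltonian at filling `1/3`, uniform in the particle number.
-/

namespace Vale.Agent.Results.P359.SpectralGap

open Vale.Agent.P359
open scoped ComplexConjugate

/-- `H ≥ δ (1 - P_Laughlin)` on antisymmetric vectors, for every large particle number. -/
theorem result : ∃ δ : ℝ, 0 < δ ∧ ∃ N₀ : ℕ, ∀ N, N₀ ≤ N →
    laughlin N ≠ 0 ∧ Antisym (laughlin N) ∧ energy N (3 * (N - 1)) (laughlin N) = 0 ∧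
    ∀ Φ : (Fin N → Fin (3 * (N - 1) + 1)) → ℂ, Antisym Φ →
      δ * (normSqV Φ - ‖∑ x, conj (laughlin N x) * Φ x‖ ^ 2 / normSqV (laughlin N)) ≤
        energy N (3 * (N - 1)) Φ := by
  obtain ⟨S, J, C, w, G, hSJ, hcert⟩ := exists_winCert
  obtain ⟨δ, hδ, N₀, h⟩ := gap_of_cert hcert hSJ
  refine ⟨δ, hδ, max N₀ 2, fun N hN => ⟨(h N (by omega)).1, laughlin_antisym, ?_, (h N (by omega)).2⟩⟩
  exact laughlin_energy_zero (pairProj_eq (by omega))

end Vale.Agent.Results.P359.SpectralGap
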